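import Vale.Agent.P039.H545.Four
import Vale.Agent.P039.H788.Det
import Vale.Agent.P039.Bz.Stmt

/-! `Bz.AbsStmt` (STEP 3 + STEP 4). -/

open Finset

namespace Vale.Agent.P039.H545

open Vale.P039 Equiv

variable {B V : Type} [Fintype B] [Fintype V] [DecidableEq B] [DecidableEq V]
  {F : B → Fin 3 → Option V}

theorem mat_of {f : B → Fin 3} {φ : B ≃ V} (h : ∀ b, F b (f b) = some (φ b)) : Mat F f := by
  refine ⟨fun b => by rw [h b]; exact Option.some_ne_none _, fun b b' e => ?_⟩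
  rw [h b, h b'] at e
  exact φ.injective (Option.some.inj e)

theorem of_mat (hc : Fintype.card B = Fintype.card V) {f : B → Fin 3} (h : Mat F f) :
    ∃ φ : B ≃ V, ∀ b, F b (f b) = some (φ b) := by
  have h1 : ∀ b, ∃ v, F b (f b) = some v := fun b => Option.ne_none_iff_exists'.1 (h.1 b)
  choose v hv using h1
  have hinj : Function.Injective v := fun b b' e => h.2 b b' (by rw [hv, hv, e])
  have hbij : Function.Bijective v := (Fintype.bijective_iff_injective_and_card v).2 ⟨hinj, hc⟩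
  exact ⟨Equiv.ofBijective v hbij, hv⟩

theorem eps_bz {x : Fin 3} (h : x ≠ 0) : eps x = Bz.eps x := by
  revert x; decide

theorem eps_788 {x : Fin 3} (h : x ≠ 0) : eps x = H788.eps x := by
  revert x; decide

/-- a cycle in the sense of `MinInv` is a cycle of the permutation -/
theorem minInv_sameCycle {f g : B → Fin 3} {φ ψ : B ≃ V} (hφ : ∀ b, F b (f b) = some (φ b))
    (hψ : ∀ b, F b (g b) = some (ψ b)) {C : Finset B} (hC : MinInv F f g C) {b₁ : B} (hb : b₁ ∈ C)
    (b : B) : b ∈ C ↔ Perm.SameCycle (φ.trans ψ.symm) b₁ b := by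
  classical
  have hrel : ∀ b b', F b (f b) = F b' (g b') ↔ b' = (φ.trans ψ.symm) b := by
    intro b b'
    rw [hφ, hψ]
    constructor
    · intro e
      rw [Equiv.trans_apply, Option.some.inj e, Equiv.symm_apply_apply]
    · rintro rfl
      simp
  have hinv : ∀ T : Finset B, Inv F f g T ↔ ∀ b, (b ∈ T ↔ (φ.trans ψ.symm) b ∈ T) := by
    intro T
    constructor
    · intro h b
      exact h b _ ((hrel b _).2 rfl)
    · intro h b b' e
      rw [(hrel b b').1 e]
      exact h b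
  obtain ⟨_, hI, hmin⟩ := hC
  have hI' := (hinv C).1 hI
  constructor
  · intro hbC
    have hT : C.filter (fun b => Perm.SameCycle (φ.trans ψ.symm) b₁ b) = C := by
      refine hmin _ (filter_subset _ _) ⟨b₁, mem_filter.2 ⟨hb, Perm.SameCycle.refl _ _⟩⟩ ((hinv _).2 fun b => ?_)
      rw [mem_filter, mem_filter, Perm.sameCycle_apply_right, ← hI' b]
    have := hT.symm ▸ hbC
    exact (mem_filter.1 this).2
  · rintro ⟨n, hn⟩
    have key : ∀ n : ℤ, ∀ b, (b ∈ C ↔ ((φ.trans ψ.symm) ^ n) b ∈ C) := by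
      intro n
      induction n using Int.induction_on with
      | zero => intro b; simp
      | succ n ih =>
        intro b
        rw [zpow_add_one, Perm.mul_apply, ← ih, ← hI']
      | pred n ih =>
        intro b
        rw [zpow_sub_one, Perm.mul_apply, ← ih, hI' ((Inv.inv (φ.trans ψ.symm : Perm B)) b)]
        simp
    rw [← hn]
    exact (key n b₁).1 hb

theorem absStmt : Bz.AbsStmt := by
  classical
  intro B V _ _ _ _ F cl hcl hcy hex
  obtain ⟨u, hu⟩ := hcy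
  obtain ⟨f₀, g₀, ⟨φ₀, hφ₀⟩, ⟨ψ₀, hψ₀⟩, hd₀⟩ := hex
  have hcard : Fintype.card B = Fintype.card V := Fintype.card_congr φ₀
  have hcyc : ∀ f g, Mat F f → Mat F g → Disj f g → ∀ C, MinInv F f g C → Odd C.card ∧
      0 < (-1 : ℝ) ^ ((C.card + 1) / 2) * ((∏ b ∈ C, eps (g b - f b) : ℤ) : ℝ) *
        ∑ b ∈ C, (u b (f b) - u b (g b)) := by
    intro f g hf hg hd C hC
    obtain ⟨φ, hφ⟩ := of_mat hcard hf
    obtain ⟨ψ, hψ⟩ := of_mat hcard hg
    obtain ⟨b₁, hb₁⟩ := hC.1
    obtain ⟨m, hm, hp⟩ := hu f g φ ψ hφ hψ hd C b₁ (minInv_sameCycle hφ hψ hC hb₁)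
    have he : ∏ b ∈ C, eps (g b - f b) = ∏ b ∈ C, Bz.eps (g b - f b) :=
      prod_congr rfl fun b _ => eps_bz (sub_ne_zero.2 (hd b).symm)
    refine ⟨⟨m + 1, by rw [hm]; ring⟩, ?_⟩
    rw [hm, he, show (2 * m + 3 + 1) / 2 = m + 2 by omega, pow_add]
    simpa using hp
  obtain ⟨f, hf, hne⟩ := four F u hcyc ⟨f₀, g₀, mat_of hφ₀, mat_of hψ₀, hd₀⟩
  obtain ⟨φ, hφ⟩ := of_mat hcard hf
  refine ⟨f, ⟨φ, hφ⟩, fun K hK => ?_⟩
  have hs : ∀ (g : B → Fin 3) (ψ : B ≃ V), (∀ b, F b (g b) = some (ψ b)) → (∀ b, g b ≠ f b) →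
      ∀ c ∈ Perm.cycleFactorsFinset (φ.trans ψ.symm), Odd (Perm.support c).card := by
    intro g ψ hψ hd c hc
    obtain ⟨b₁, hb₁⟩ := (Perm.mem_cycleFactorsFinset_iff.1 hc).1.nonempty_support
    have e1 : c = Perm.cycleOf (φ.trans ψ.symm) b₁ := Perm.cycle_is_cycleOf hb₁ hc
    obtain ⟨m, hm, _⟩ := hu f g φ ψ hφ hψ (fun b => (hd b).symm) (Perm.support c) b₁ (by
      intro b
      have hb₂ : b₁ ∈ Perm.support (φ.trans ψ.symm) := Perm.mem_cycleFactorsFinset_support_le hc hb₁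
      rw [e1, Perm.mem_support_cycleOf_iff]
      exact ⟨fun h => h.1, fun h => ⟨h, hb₂⟩⟩)
    exact ⟨m + 1, by rw [hm]; ring⟩
  have h0 : ∑ g ∈ univ.filter (H788.IsMat F), ∏ b, H788.eps (g b - f b) ≠ 0 := by
    intro h
    apply hne
    rw [← h]
    refine sum_subset_zero_on_sdiff (fun g hg => ?_) (fun g hg => ?_) (fun g hg => ?_)
    · obtain ⟨h1, h2⟩ := (mem_filter.1 hg).2
      exact mem_filter.2 ⟨mem_univ _, of_mat hcard h1⟩
    · obtain ⟨h1, h2⟩ := mem_sdiff.1 hg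
      obtain ⟨ψ, hψ⟩ := (mem_filter.1 h1).2
      have h3 : ¬ Disj f g := fun h4 => h2 (mem_filter.2 ⟨mem_univ _, mat_of hψ, h4⟩)
      unfold Disj at h3
      push Not at h3
      obtain ⟨b, hb⟩ := h3
      exact prod_eq_zero (mem_univ b) (by rw [hb, sub_self]; rfl)
    · obtain ⟨h1, h2⟩ := (mem_filter.1 hg).2
      exact prod_congr rfl fun b _ => eps_788 (sub_ne_zero.2 (h2 b).symm)
  obtain ⟨b, hb⟩ := H788.step3 hcl hφ hs h0 hK
  by_cases h1 : ∃ v ∈ K, F b (f b + 1) = some v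
  · by_cases h2 : ∃ v ∈ K, F b (f b + 2) = some v
    · exact absurd (iff_of_true h1 h2) hb
    · push Not at h2
      refine ⟨b, f b + 1, f b + 2, ?_, ?_, h1, h2⟩
      · generalize f b = a; revert a; decide
      · generalize f b = a; revert a; decide
  · by_cases h2 : ∃ v ∈ K, F b (f b + 2) = some v
    · push Not at h1
      refine ⟨b, f b + 2, f b + 1, ?_, ?_, h2, h1⟩
      · generalize f b = a; revert a; decide
      · generalize f b = a; revert a; decide
    · exact absurd (iff_of_false h1 h2) hb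

end Vale.Agent.P039.H545
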